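import Vale.Agent.P042.WG.Spec
set_option autoImplicit false

/-! Block G4: nearly real local data. -/

namespace Vale.Agent.P042.WG

open Polynomial Finset
open Vale.Agent.P042.PS463 (mn uu uu_one uu_mul exists_split sum_divisors_mul Gam Ran cop_div
  Ran_nonneg mn_one_one mean_mul)

variable {h : ℤ[X]} {v : ℕ → ℕ → ℤ → ℝ} {B p0 : ℕ} {κ C c1 : ℝ}

lemma LocS.uu_pow (hL : LocS h v B p0 κ C c1) {p : ℕ} (hp : p.Prime) (i : ℕ) : uu v (p ^ i) = v p i := by
  funext x
  unfold uu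
  rw [hp.factorization_pow, Finsupp.prod_single_index (hL.one p x)]

lemma LocS.uu_per (hL : LocS h v B p0 κ C c1) {n m : ℕ} (hn : 1 ≤ n) (hnm : n ∣ m) (x : ℤ) :
    uu v n (x + m) = uu v n x := by
  unfold uu
  apply Finsupp.prod_congr
  intro p hp
  have hpp : p.Prime := Nat.prime_of_mem_primeFactors hp
  obtain ⟨b, hb⟩ : p ^ (n.factorization p) ∣ m := (Nat.ordProj_dvd n p).trans hnm
  rw [hb]
  have h1 : ∀ b : ℕ, v p (n.factorization p) (x + ((p ^ (n.factorization p) * b : ℕ) : ℤ)) =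
      v p (n.factorization p) x := by
    intro b
    induction b with
    | zero => simp
    | succ b ih =>
      rw [← ih, ← hL.per p (n.factorization p) hpp (x + ((p ^ (n.factorization p) * b : ℕ) : ℤ))]
      congr 1
      push_cast
      ring
  exact h1 b

lemma LocS.uu_bd (hL : LocS h v B p0 κ C c1) {n : ℕ} (hn : 1 ≤ n) (x : ℤ) :
    |uu v n x| ≤ (n : ℝ) ^ B := by
  unfold uu
  rw [Finsupp.prod, Finset.abs_prod]
  have h1 : (n : ℝ) = ∏ p ∈ n.factorization.support, (((p ^ (n.factorization p) : ℕ)) : ℝ) := by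
    have := Nat.prod_factorization_pow_eq_self (n := n) (by omega)
    conv_lhs => rw [← this]
    rw [Finsupp.prod]
    push_cast
    rfl
  conv_rhs => rw [h1]
  rw [← Finset.prod_pow]
  apply Finset.prod_le_prod
  · intro p _
    exact abs_nonneg _
  · intro p hp
    exact hL.bd p _ (Nat.prime_of_mem_primeFactors hp) x

/-- factorisation of the means -/
lemma LocS.mn_mul (hL : LocS h v B p0 κ C c1) {n1 n2 q1 q2 : ℕ} (hn1 : 1 ≤ n1) (hn2 : 1 ≤ n2)
    (hq1 : 1 ≤ q1) (hq2 : 1 ≤ q2) (hcop : Nat.Coprime (n1 * q1) (n2 * q2)) (a a1 a2 : ℤ)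
    (ha : a = a1 * q2 + a2 * q1) :
    mn h (uu v (n1 * n2)) (n1 * n2) (q1 * q2) a = mn h (uu v n1) n1 q1 a1 * mn h (uu v n2) n2 q2 a2 := by
  have hper : ∀ (n q : ℕ) (b : ℤ), 1 ≤ n → 1 ≤ q → ∀ x : ℕ,
      (uu v n ((x + n * q : ℕ) : ℤ) : ℂ) *
        e ((b : ℝ) * ((h.eval ((x + n * q : ℕ) : ℤ) : ℤ) : ℝ) / (q : ℝ)) =
      (uu v n (x : ℤ) : ℂ) * e ((b : ℝ) * ((h.eval (x : ℤ) : ℤ) : ℝ) / (q : ℝ)) := by
    intro n q b hn hq x
    have h1 : uu v n ((x + n * q : ℕ) : ℤ) = uu v n (x : ℤ) := by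
      have := hL.uu_per hn (Dvd.intro q rfl : n ∣ n * q) (x : ℤ)
      rw [← this]
      push_cast
      rfl
    have h2 := e_eval_periodic h b q hq (x : ℤ) (n : ℤ)
    have h3 : ((x + n * q : ℕ) : ℤ) = (q : ℤ) * (n : ℤ) + (x : ℤ) := by push_cast; ring
    rw [h1, h3, h2]
  have hq1r : (q1 : ℝ) ≠ 0 := by exact_mod_cast (by omega : q1 ≠ 0)
  have hq2r : (q2 : ℝ) ≠ 0 := by exact_mod_cast (by omega : q2 ≠ 0)
  have hc12 : Nat.Coprime n1 n2 :=
    Nat.Coprime.coprime_dvd_left (Dvd.intro _ rfl) (Nat.Coprime.coprime_dvd_right (Dvd.intro _ rfl) hcop)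
  have hnq1 : 1 ≤ n1 * q1 := Nat.one_le_iff_ne_zero.2 (Nat.mul_ne_zero (by omega) (by omega))
  unfold mn
  rw [div_mul_div_comm]
  congr 1
  · rw [← mean_mul _ _ (n1 * q1) (n2 * q2) hnq1 (Nat.coprime_comm.1 hcop)
      (hper n1 q1 a1 hn1 hq1) (hper n2 q2 a2 hn2 hq2)]
    have h4 : n1 * n2 * (q1 * q2) = n1 * q1 * (n2 * q2) := by ring
    rw [h4]
    apply Finset.sum_congr rfl
    intro x _
    rw [uu_mul v hc12]
    have h5 : e ((a : ℝ) * ((h.eval (x : ℤ) : ℤ) : ℝ) / ((q1 * q2 : ℕ) : ℝ)) =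
        e ((a1 : ℝ) * ((h.eval (x : ℤ) : ℤ) : ℝ) / (q1 : ℝ)) *
        e ((a2 : ℝ) * ((h.eval (x : ℤ) : ℤ) : ℝ) / (q2 : ℝ)) := by
      rw [← e_add]
      congr 1
      rw [ha]
      push_cast
      field_simp
    rw [h5]
    push_cast
    ring
  · push_cast
    ring

/-- vanishing off the divisors -/
lemma LocS.mn_zero (hL : LocS h v B p0 κ C c1) {n q : ℕ} (hn : 1 ≤ n) (hq : 1 ≤ q) (a : ℤ)
    (ha : IsCoprime a (q : ℤ)) (hnq : ¬ n ∣ q) : mn h (uu v n) n q a = 0 := by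
  obtain ⟨p, hp, hpf⟩ : ∃ p, p.Prime ∧ q.factorization p < n.factorization p := by
    by_contra hcon
    push Not at hcon
    apply hnq
    rw [← Nat.factorization_le_iff_dvd (by omega) (by omega)]
    intro p
    by_cases hp : p.Prime
    · exact hcon p hp
    · rw [Nat.factorization_eq_zero_of_not_prime _ hp]
      exact Nat.zero_le _
  set i := n.factorization p with hi
  set j := q.factorization p with hj
  obtain ⟨n', hn'⟩ : p ^ i ∣ n := Nat.ordProj_dvd n p
  obtain ⟨q', hq'⟩ : p ^ j ∣ q := Nat.ordProj_dvd q p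
  have hn'0 : n' ≠ 0 := by rintro rfl; omega
  have hq'0 : q' ≠ 0 := by rintro rfl; omega
  have hcn : Nat.Coprime p n' := by
    have := Nat.coprime_ordCompl hp (n := n) (by omega)
    have h1 : n / p ^ (n.factorization p) = n' := by
      rw [← hi]
      conv_lhs => rw [hn']
      exact Nat.mul_div_cancel_left _ (pow_pos hp.pos _)
    rwa [h1] at this
  have hcq : Nat.Coprime p q' := by
    have := Nat.coprime_ordCompl hp (n := q) (by omega)
    have h1 : q / p ^ (q.factorization p) = q' := by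
      rw [← hj]
      conv_lhs => rw [hq']
      exact Nat.mul_div_cancel_left _ (pow_pos hp.pos _)
    rwa [h1] at this
  have hcop : Nat.Coprime (p ^ i * p ^ j) (n' * q') := by
    rw [← pow_add]
    exact Nat.Coprime.pow_left _ (Nat.Coprime.mul_right hcn hcq)
  have hcopq : Nat.Coprime (p ^ j) q' := Nat.Coprime.pow_left _ hcq
  obtain ⟨a1, a2, ha12, hc1, hc2⟩ := exists_split hcopq a (by rw [← hq']; exact ha)
  have key := hL.mn_mul (n1 := p ^ i) (n2 := n') (q1 := p ^ j) (q2 := q') (Nat.one_le_pow _ _ hp.pos)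
    (by omega) (Nat.one_le_pow _ _ hp.pos) (by omega) hcop a a1 a2 ha12
  rw [← hn', ← hq'] at key
  rw [key, hL.uu_pow hp, hL.zero p i j hp hpf a1, zero_mul]
  rcases Nat.eq_zero_or_pos j with hj0 | hj0
  · exact Or.inl hj0
  · right
    have : ((p ^ j : ℕ) : ℤ) = (p : ℤ) * (p : ℤ) ^ (j - 1) := by
      rw [← pow_succ']
      push_cast
      congr 1
      omega
    rw [this] at hc1
    exact hc1.of_mul_right_left

lemma LocS.Gam_mul (hL : LocS h v B p0 κ C c1) {q1 q2 : ℕ} (hq1 : 1 ≤ q1) (hq2 : 1 ≤ q2)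
    (hcop : Nat.Coprime q1 q2) (a a1 a2 : ℤ) (ha : a = a1 * q2 + a2 * q1) :
    Gam h v (q1 * q2) a = Gam h v q1 a1 * Gam h v q2 a2 := by
  unfold Gam
  rw [sum_divisors_mul _ hcop, Finset.sum_mul_sum]
  apply Finset.sum_congr rfl
  intro x hx
  apply Finset.sum_congr rfl
  intro y hy
  have hx' := Nat.dvd_of_mem_divisors hx
  have hy' := Nat.dvd_of_mem_divisors hy
  exact hL.mn_mul (Nat.pos_of_mem_divisors hx) (Nat.pos_of_mem_divisors hy) hq1 hq2
    (cop_div hcop hx' hy') a a1 a2 ha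

lemma LocS.Ran_mul (hL : LocS h v B p0 κ C c1) {q1 q2 : ℕ} (hq1 : 1 ≤ q1) (hq2 : 1 ≤ q2)
    (hcop : Nat.Coprime q1 q2) (a a1 a2 : ℤ) (ha : a = a1 * q2 + a2 * q1) :
    Ran h v c1 (q1 * q2) a = Ran h v c1 q1 a1 * Ran h v c1 q2 a2 := by
  unfold Ran
  rw [sum_divisors_mul _ hcop, Finset.sum_mul_sum]
  apply Finset.sum_congr rfl
  intro x hx
  apply Finset.sum_congr rfl
  intro y hy
  have hx' := Nat.dvd_of_mem_divisors hx
  have hy' := Nat.dvd_of_mem_divisors hy
  rw [hL.mn_mul (Nat.pos_of_mem_divisors hx) (Nat.pos_of_mem_divisors hy) hq1 hq2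
    (cop_div hcop hx' hy') a a1 a2 ha, norm_mul, Nat.cast_mul,
    Real.mul_rpow (Nat.cast_nonneg _) (Nat.cast_nonneg _)]
  ring

theorem LocS.main (hL : LocS h v B p0 κ C c1) (hκ : 0 ≤ κ) (hC : 1 ≤ C) (q : ℕ) : 1 ≤ q →
    ∀ a : ℤ, IsCoprime a (q : ℤ) →
      (∃ w : ℝ, 0 ≤ w ∧ ‖Gam h v q a - (w : ℂ)‖ ≤
        ((1 + κ) ^ (q.primeFactors.filter (· < p0)).card - 1) * w) ∧
      Ran h v c1 q a ≤ C ^ (q.primeFactors.filter (· < p0)).card := by
  induction q using Nat.recOnPosPrimePosCoprime with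
  | prime_pow p n hp hn =>
    intro _ a ha
    have hap : IsCoprime a (p : ℤ) := by
      have : ((p ^ n : ℕ) : ℤ) = (p : ℤ) * (p : ℤ) ^ (n - 1) := by
        rw [← pow_succ']
        push_cast
        congr 1
        omega
      rw [this] at ha
      exact ha.of_mul_right_left
    have hG : Gam h v (p ^ n) a = ∑ i ∈ Finset.range (n + 1), mn h (v p i) (p ^ i) (p ^ n) a := by
      unfold Gam
      rw [Nat.sum_divisors_prime_pow hp]
      apply Finset.sum_congr rfl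
      intro i _
      rw [hL.uu_pow hp]
    have hR : Ran h v c1 (p ^ n) a = ∑ i ∈ Finset.range (n + 1),
        ((p ^ i : ℕ) : ℝ) ^ c1 * ‖mn h (v p i) (p ^ i) (p ^ n) a‖ := by
      unfold Ran
      rw [Nat.sum_divisors_prime_pow hp]
      apply Finset.sum_congr rfl
      intro i _
      rw [hL.uu_pow hp]
    rw [hG, hR]
    rw [Nat.primeFactors_prime_pow (by omega) hp]
    by_cases hpp : p < p0
    · rw [Finset.filter_singleton, if_pos hpp, Finset.card_singleton, pow_one, pow_one]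
      refine ⟨?_, hL.sum p n hp hn a hap⟩
      rw [add_sub_cancel_left]
      exact hL.near p n hp hpp hn a hap
    · rw [Finset.filter_singleton, if_neg hpp, Finset.card_empty, pow_zero, pow_zero]
      refine ⟨⟨_, hL.ge p n hp (by omega) hn a hap, ?_⟩, hL.sum1 p n hp (by omega) hn a hap⟩
      rw [sub_self, zero_mul]
      have him := hL.im p n hp (by omega) hn a hap
      apply le_of_eq
      rw [norm_eq_zero]
      apply Complex.ext
      · simp
      · rw [Complex.sub_im, him, Complex.ofReal_im, sub_zero, Complex.zero_im]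
  | zero => intro h0; omega
  | one =>
    intro _ a _
    have hG : Gam h v 1 a = 1 := by
      unfold Gam
      rw [Nat.divisors_one, Finset.sum_singleton, mn_one_one]
    have hR : Ran h v c1 1 a = 1 := by
      unfold Ran
      rw [Nat.divisors_one, Finset.sum_singleton, mn_one_one]
      simp
    rw [hG, hR]
    simp only [Nat.primeFactors_one, Finset.filter_empty, Finset.card_empty, pow_zero]
    exact ⟨⟨1, by norm_num, by simp⟩, le_rfl⟩
  | coprime q1 q2 h1 h2 hcop ih1 ih2 =>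
    intro _ a ha
    obtain ⟨a1, a2, ha12, hc1, hc2⟩ := exists_split hcop a ha
    obtain ⟨⟨w1, hw1, i1⟩, s1⟩ := ih1 (by omega) a1 hc1
    obtain ⟨⟨w2, hw2, i2⟩, s2⟩ := ih2 (by omega) a2 hc2
    rw [hL.Gam_mul (by omega) (by omega) hcop a a1 a2 ha12,
      hL.Ran_mul (by omega) (by omega) hcop a a1 a2 ha12]
    rw [hcop.primeFactors_mul, Finset.filter_union, Finset.card_union_of_disjoint
      (Finset.disjoint_filter_filter hcop.disjoint_primeFactors), pow_add, pow_add]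
    set A1 := (1 + κ) ^ (q1.primeFactors.filter (· < p0)).card
    set A2 := (1 + κ) ^ (q2.primeFactors.filter (· < p0)).card
    have hA1 : 1 ≤ A1 := one_le_pow₀ (by linarith)
    have hA2 : 1 ≤ A2 := one_le_pow₀ (by linarith)
    refine ⟨⟨w1 * w2, mul_nonneg hw1 hw2, ?_⟩, ?_⟩
    · have e1 : Gam h v q1 a1 * Gam h v q2 a2 - ((w1 * w2 : ℝ) : ℂ) =
          (Gam h v q1 a1 - (w1 : ℂ)) * (w2 : ℂ) + (w1 : ℂ) * (Gam h v q2 a2 - (w2 : ℂ)) +
          (Gam h v q1 a1 - (w1 : ℂ)) * (Gam h v q2 a2 - (w2 : ℂ)) := by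
        push_cast
        ring
      rw [e1]
      have n1 : ‖(w1 : ℂ)‖ = w1 := by rw [Complex.norm_real, Real.norm_of_nonneg hw1]
      have n2 : ‖(w2 : ℂ)‖ = w2 := by rw [Complex.norm_real, Real.norm_of_nonneg hw2]
      refine (norm_add₃_le).trans ?_
      rw [norm_mul, norm_mul, norm_mul, n1, n2]
      have j1 : ‖Gam h v q1 a1 - (w1 : ℂ)‖ * w2 ≤ (A1 - 1) * w1 * w2 :=
        mul_le_mul_of_nonneg_right i1 hw2
      have j2 : w1 * ‖Gam h v q2 a2 - (w2 : ℂ)‖ ≤ w1 * ((A2 - 1) * w2) :=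
        mul_le_mul_of_nonneg_left i2 hw1
      have j3 : ‖Gam h v q1 a1 - (w1 : ℂ)‖ * ‖Gam h v q2 a2 - (w2 : ℂ)‖ ≤
          ((A1 - 1) * w1) * ((A2 - 1) * w2) :=
        mul_le_mul i1 i2 (norm_nonneg _) (mul_nonneg (by linarith) hw1)
      calc _ ≤ (A1 - 1) * w1 * w2 + w1 * ((A2 - 1) * w2) + ((A1 - 1) * w1) * ((A2 - 1) * w2) :=
            add_le_add (add_le_add j1 j2) j3
        _ = (A1 * A2 - 1) * (w1 * w2) := by ring
    · exact mul_le_mul s1 s2 (Ran_nonneg _ _) (by positivity)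

lemma one_add_pow_le (x : ℝ) (hx0 : 0 ≤ x) (hx1 : x ≤ 1) (n : ℕ) :
    (1 + x) ^ n ≤ 1 + ((2 : ℝ) ^ n - 1) * x := by
  induction n with
  | zero => simp
  | succ n ih =>
    have h2 : (1 : ℝ) ≤ (2 : ℝ) ^ n := one_le_pow₀ (by norm_num)
    have h3 : 0 ≤ ((2 : ℝ) ^ n - 1) * x := mul_nonneg (by linarith) hx0
    calc (1 + x) ^ (n + 1) = (1 + x) ^ n * (1 + x) := pow_succ _ _
      _ ≤ (1 + ((2 : ℝ) ^ n - 1) * x) * (1 + x) := mul_le_mul_of_nonneg_right ih (by linarith)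
      _ ≤ _ := by
        rw [pow_succ]
        nlinarith

/-- abstract form of L2 -/
theorem LocS.adm (hL : LocS h v B p0 κ C c1) (hκ : 0 ≤ κ) (hκ1 : κ ≤ 1) (hC : 1 ≤ C)
    (hc1 : 0 < c1) (Q : ℕ) (hQ : 1 ≤ Q) :
    AdmS h B Q (((2 : ℝ) ^ p0 - 1) * κ) (C ^ p0 * (Q : ℝ) ^ (-c1)) (uu v) := by
  have hQ0 : (0 : ℝ) < Q := by exact_mod_cast hQ
  have hcard : ∀ q : ℕ, (q.primeFactors.filter (· < p0)).card ≤ p0 := by
    intro q
    calc (q.primeFactors.filter (· < p0)).card ≤ (Finset.range p0).card := by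
          apply Finset.card_le_card
          intro p hp
          rw [Finset.mem_filter] at hp
          exact Finset.mem_range.2 hp.2
      _ = p0 := Finset.card_range p0
  -- the truncated sum
  have key : ∀ q : ℕ, 1 ≤ q → ∀ a : ℤ, IsCoprime a (q : ℤ) →
      ‖∑ n ∈ Finset.Icc 1 Q, mn h (uu v n) n q a - Gam h v q a‖ ≤ C ^ p0 * (Q : ℝ) ^ (-c1) := by
    intro q hq a ha
    obtain ⟨_, hs⟩ := hL.main hκ hC q hq a ha
    have e1 : ∑ n ∈ Finset.Icc 1 Q, mn h (uu v n) n q a =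
        ∑ n ∈ q.divisors.filter (· ≤ Q), mn h (uu v n) n q a := by
      symm
      apply Finset.sum_subset
      · intro n hn
        rw [Finset.mem_filter] at hn
        rw [Finset.mem_Icc]
        exact ⟨Nat.pos_of_mem_divisors hn.1, hn.2⟩
      · intro n hn hn2
        rw [Finset.mem_Icc] at hn
        apply hL.mn_zero hn.1 hq a ha
        intro hd
        apply hn2
        rw [Finset.mem_filter, Nat.mem_divisors]
        exact ⟨⟨hd, by omega⟩, hn.2⟩
    have e2 : Gam h v q a = ∑ n ∈ q.divisors.filter (· ≤ Q), mn h (uu v n) n q a +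
        ∑ n ∈ q.divisors.filter (fun n => ¬ n ≤ Q), mn h (uu v n) n q a := by
      unfold Gam
      rw [Finset.sum_filter_add_sum_filter_not]
    rw [e1, e2, sub_add_cancel_left, norm_neg]
    refine (norm_sum_le _ _).trans ?_
    have e3 : ∀ n ∈ q.divisors.filter (fun n => ¬ n ≤ Q), ‖mn h (uu v n) n q a‖ ≤
        (Q : ℝ) ^ (-c1) * ((n : ℝ) ^ c1 * ‖mn h (uu v n) n q a‖) := by
      intro n hn
      rw [Finset.mem_filter] at hn
      rw [← mul_assoc]
      apply le_mul_of_one_le_left (norm_nonneg _)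
      rw [Real.rpow_neg hQ0.le, ← div_eq_inv_mul, one_le_div (by positivity)]
      apply Real.rpow_le_rpow hQ0.le _ hc1.le
      have : Q ≤ n := by omega
      exact_mod_cast this
    calc _ ≤ ∑ n ∈ q.divisors.filter (fun n => ¬ n ≤ Q),
          (Q : ℝ) ^ (-c1) * ((n : ℝ) ^ c1 * ‖mn h (uu v n) n q a‖) := Finset.sum_le_sum e3
      _ ≤ ∑ n ∈ q.divisors, (Q : ℝ) ^ (-c1) * ((n : ℝ) ^ c1 * ‖mn h (uu v n) n q a‖) := by
          apply Finset.sum_le_sum_of_subset_of_nonneg (Finset.filter_subset _ _)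
          intro n _ _
          positivity
      _ = (Q : ℝ) ^ (-c1) * Ran h v c1 q a := by
          unfold Ran
          rw [Finset.mul_sum]
      _ ≤ (Q : ℝ) ^ (-c1) * C ^ p0 := by
          apply mul_le_mul_of_nonneg_left _ (by positivity)
          exact hs.trans (pow_le_pow_right₀ hC (hcard q))
      _ = _ := by ring
  refine ⟨?_, ?_, ?_, ?_⟩
  · intro n hn _ x
    exact hL.uu_per hn (dvd_refl n) x
  · intro n hn _ x
    exact hL.uu_bd hn x
  · rw [Finset.sum_eq_single_of_mem 1 (Finset.mem_Icc.2 ⟨le_rfl, hQ⟩)]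
    · exact mn_one_one v 0
    · intro n hn hn1
      rw [Finset.mem_Icc] at hn
      apply hL.mn_zero hn.1 le_rfl
      · simpa using isCoprime_zero_left.2 isUnit_one
      · intro hd
        apply hn1
        exact Nat.dvd_one.1 hd
  · intro q hq a ha
    obtain ⟨⟨w, hw, hwG⟩, _⟩ := hL.main hκ hC q hq a ha
    refine ⟨w, hw, ?_⟩
    have h1 := key q hq a ha
    have h2 : ((1 + κ) ^ (q.primeFactors.filter (· < p0)).card - 1) * w ≤
        ((2 : ℝ) ^ p0 - 1) * κ * w := by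
      apply mul_le_mul_of_nonneg_right _ hw
      have h3 : (1 + κ) ^ (q.primeFactors.filter (· < p0)).card ≤ (1 + κ) ^ p0 :=
        pow_le_pow_right₀ (by linarith) (hcard q)
      have h4 := one_add_pow_le κ hκ hκ1 p0
      linarith
    calc _ ≤ ‖∑ n ∈ Finset.Icc 1 Q, mn h (uu v n) n q a - Gam h v q a‖ + ‖Gam h v q a - (w : ℂ)‖ := by
          rw [show (∑ n ∈ Finset.Icc 1 Q, mn h (uu v n) n q a) - (w : ℂ) =
            (∑ n ∈ Finset.Icc 1 Q, mn h (uu v n) n q a - Gam h v q a) +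
            (Gam h v q a - (w : ℂ)) by ring]
          exact norm_add_le _ _
      _ ≤ _ := by linarith

end Vale.Agent.P042.WG
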