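import Vale.Agent.P042.WG.G4.Loc
set_option autoImplicit false

/-! Block G4: gluing. -/

namespace Vale.Agent.P042.WG

open Polynomial Finset
open Vale.Agent.P042.PS463 (rMax_le)

lemma AdmS.mono {h : ℤ[X]} {B Q : ℕ} {κ η η' : ℝ} {u : ℕ → ℤ → ℝ} (hu : AdmS h B Q κ η u)
    (hη : η ≤ η') : AdmS h B Q κ η' u :=
  ⟨hu.per, hu.bd, hu.one, fun q hq a ha => by
    obtain ⟨w, hw, h1⟩ := hu.sec q hq a ha
    exact ⟨w, hw, h1.trans (by linarith)⟩⟩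

theorem glueS (h : ℤ[X]) (B : ℕ) (κ : ℝ) (C1 : ℕ) (hC1 : 1 ≤ C1)
    (hT : ∀ (Q : ℕ), 1 ≤ Q → ∀ (η : ℝ), 0 ≤ η → ∀ (u : ℕ → ℤ → ℝ), AdmS h B Q κ η u →
      ∀ N : ℕ, C1 * Q ^ C1 ≤ N → (rMax h N : ℝ) ≤ C1 * (η + 1 / Q) * N) (C0 c0 : ℝ)
    (hc0 : 0 < c0) (hL2 : ∀ Q : ℕ, 1 ≤ Q → ∃ u : ℕ → ℤ → ℝ, AdmS h B Q κ (C0 * (Q : ℝ) ^ (-c0)) u) :
    ∃ c C : ℝ, 0 < c ∧ ∀ N : ℕ, 1 ≤ N → (rMax h N : ℝ) ≤ C * (N : ℝ) ^ (1 - c) := by
  set c1 : ℝ := min c0 1 with hc1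
  have hc1p : 0 < c1 := lt_min hc0 one_pos
  have hC1r : (1 : ℝ) ≤ C1 := by exact_mod_cast hC1
  have hC1p : (0 : ℝ) < C1 := by linarith
  set C0' : ℝ := max C0 0 with hC0'
  have hC0n : 0 ≤ C0' := le_max_right _ _
  set c : ℝ := c1 / C1 with hc
  have hcp : 0 < c := by positivity
  set t : ℝ := (C1 : ℝ)⁻¹ with ht
  refine ⟨c, (C1 : ℝ) * (C0' + 1) * (2 * (C1 : ℝ) ^ t) ^ c1 + (C1 : ℝ) ^ c, hcp, fun N hN => ?_⟩
  have hNr : (1 : ℝ) ≤ N := by exact_mod_cast hN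
  have hN0 : (0 : ℝ) < N := by linarith
  have hNc : (N : ℝ) ^ (1 - c) = N * (N : ℝ) ^ (-c) := by
    rw [sub_eq_add_neg, Real.rpow_add hN0, Real.rpow_one]
  rcases lt_or_ge N C1 with hsmall | hbig
  · have h1 := rMax_le h N
    have h2 : (N : ℝ) = (N : ℝ) ^ c * (N : ℝ) ^ (1 - c) := by
      rw [← Real.rpow_add hN0]
      simp
    calc (rMax h N : ℝ) ≤ N := h1
      _ = (N : ℝ) ^ c * (N : ℝ) ^ (1 - c) := h2
      _ ≤ (C1 : ℝ) ^ c * (N : ℝ) ^ (1 - c) := by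
          apply mul_le_mul_of_nonneg_right _ (by positivity)
          exact Real.rpow_le_rpow hN0.le (by exact_mod_cast hsmall.le) hcp.le
      _ ≤ _ := by
          apply mul_le_mul_of_nonneg_right _ (by positivity)
          have : 0 ≤ (C1 : ℝ) * (C0' + 1) * (2 * (C1 : ℝ) ^ t) ^ c1 := by positivity
          linarith
  · -- choose Q
    set y : ℝ := ((N : ℝ) / C1) ^ t with hy
    have hNC : 1 ≤ (N : ℝ) / C1 := by
      rw [le_div_iff₀ hC1p, one_mul]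
      exact_mod_cast hbig
    have hy1 : 1 ≤ y := Real.one_le_rpow hNC (by positivity)
    set Q : ℕ := ⌊y⌋₊ with hQ
    have hQ1 : 1 ≤ Q := (Nat.one_le_floor_iff y).2 hy1
    have hQy : (Q : ℝ) ≤ y := Nat.floor_le (by linarith)
    have hyQ : y ≤ 2 * Q := by
      have h3 : y < Q + 1 := Nat.lt_floor_add_one y
      have h4 : (1 : ℝ) ≤ Q := by exact_mod_cast hQ1
      linarith
    have hQr : (1 : ℝ) ≤ Q := by exact_mod_cast hQ1
    have hQ0 : (0 : ℝ) < Q := by linarith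
    have hNQ : C1 * Q ^ C1 ≤ N := by
      have h5 : (Q : ℝ) ^ C1 ≤ (N : ℝ) / C1 := by
        calc (Q : ℝ) ^ C1 ≤ y ^ C1 := pow_le_pow_left₀ hQ0.le hQy C1
          _ = (N : ℝ) / C1 := by
              rw [hy, ht]
              exact Real.rpow_inv_natCast_pow (by linarith) (by omega)
      rw [le_div_iff₀ hC1p] at h5
      have h6 : ((C1 * Q ^ C1 : ℕ) : ℝ) ≤ (N : ℝ) := by
        push_cast
        linarith
      exact_mod_cast h6
    obtain ⟨u, hu⟩ := hL2 Q hQ1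
    have hu' : AdmS h B Q κ (C0' * (Q : ℝ) ^ (-c0)) u := by
      apply hu.mono
      apply mul_le_mul_of_nonneg_right (le_max_left _ _)
      positivity
    have h7 := hT Q hQ1 _ (by positivity) u hu' N hNQ
    have h8 : (Q : ℝ) ^ (-c0) ≤ (Q : ℝ) ^ (-c1) :=
      Real.rpow_le_rpow_of_exponent_le hQr (neg_le_neg (min_le_left _ _))
    have h9 : 1 / (Q : ℝ) ≤ (Q : ℝ) ^ (-c1) := by
      have : 1 / (Q : ℝ) = (Q : ℝ) ^ (-1 : ℝ) := by
        rw [Real.rpow_neg hQ0.le, Real.rpow_one, one_div]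
      rw [this]
      exact Real.rpow_le_rpow_of_exponent_le hQr (neg_le_neg (min_le_right _ _))
    have h10 : (Q : ℝ) ^ (-c1) ≤ (2 * (C1 : ℝ) ^ t) ^ c1 * (N : ℝ) ^ (-c) := by
      have h11 : (Q : ℝ) ^ (-c1) = (1 / (Q : ℝ)) ^ c1 := by
        rw [Real.rpow_neg hQ0.le, one_div, Real.inv_rpow hQ0.le]
      have h12 : 1 / (Q : ℝ) ≤ 2 * (C1 : ℝ) ^ t * (N : ℝ) ^ (-t) := by
        have h13 : y = (N : ℝ) ^ t / (C1 : ℝ) ^ t := by
          rw [hy, Real.div_rpow hN0.le hC1p.le]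
        have h14 : (0 : ℝ) < (C1 : ℝ) ^ t := by positivity
        have h15 : (0 : ℝ) < (N : ℝ) ^ t := by positivity
        rw [Real.rpow_neg hN0.le, div_le_iff₀ hQ0]
        rw [h13, div_le_iff₀ h14] at hyQ
        calc (1 : ℝ) = (N : ℝ) ^ t * ((N : ℝ) ^ t)⁻¹ := by field_simp
          _ ≤ (2 * Q * (C1 : ℝ) ^ t) * ((N : ℝ) ^ t)⁻¹ := by
              apply mul_le_mul_of_nonneg_right hyQ (by positivity)
          _ = _ := by ring
      rw [h11]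
      calc (1 / (Q : ℝ)) ^ c1 ≤ (2 * (C1 : ℝ) ^ t * (N : ℝ) ^ (-t)) ^ c1 :=
            Real.rpow_le_rpow (by positivity) h12 hc1p.le
        _ = (2 * (C1 : ℝ) ^ t) ^ c1 * ((N : ℝ) ^ (-t)) ^ c1 := by
            rw [Real.mul_rpow (by positivity) (by positivity)]
        _ = (2 * (C1 : ℝ) ^ t) ^ c1 * (N : ℝ) ^ (-c) := by
            rw [← Real.rpow_mul hN0.le]
            congr 2
            rw [hc, ht]
            field_simp
    calc (rMax h N : ℝ) ≤ C1 * (C0' * (Q : ℝ) ^ (-c0) + 1 / Q) * N := h7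
      _ ≤ C1 * (C0' * (Q : ℝ) ^ (-c1) + (Q : ℝ) ^ (-c1)) * N := by
          apply mul_le_mul_of_nonneg_right _ hN0.le
          apply mul_le_mul_of_nonneg_left _ hC1p.le
          apply add_le_add _ h9
          exact mul_le_mul_of_nonneg_left h8 hC0n
      _ = C1 * (C0' + 1) * N * (Q : ℝ) ^ (-c1) := by ring
      _ ≤ C1 * (C0' + 1) * N * ((2 * (C1 : ℝ) ^ t) ^ c1 * (N : ℝ) ^ (-c)) := by
          apply mul_le_mul_of_nonneg_left h10
          positivity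
      _ = C1 * (C0' + 1) * (2 * (C1 : ℝ) ^ t) ^ c1 * (N : ℝ) ^ (1 - c) := by
          rw [hNc]; ring
      _ ≤ _ := by
          apply mul_le_mul_of_nonneg_right _ (by positivity)
          have : 0 ≤ (C1 : ℝ) ^ c := by positivity
          linarith

/-- block G4 -/
theorem g4 (hG3 : G3) : G4 := by
  intro h hk hpos ⟨p0, hloc⟩
  obtain ⟨κ, hκ, hG3⟩ := hG3 h hk hpos
  have h2 : (1 : ℝ) ≤ (2 : ℝ) ^ p0 := one_le_pow₀ (by norm_num)
  set κ' : ℝ := min 1 (κ / (2 : ℝ) ^ p0) with hκ'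
  have hκ'0 : 0 < κ' := lt_min one_pos (by positivity)
  obtain ⟨v, B, C, c1, hC, hc1, hL⟩ := hloc κ' hκ'0
  obtain ⟨C1, hC1, hT⟩ := hG3 B
  refine glueS h B κ C1 hC1 hT (C ^ p0) c1 hc1 fun Q hQ => ⟨PS463.uu v, ?_⟩
  have hA := hL.adm hκ'0.le (min_le_left _ _) hC hc1 Q hQ
  have h3 : ((2 : ℝ) ^ p0 - 1) * κ' ≤ κ := by
    calc ((2 : ℝ) ^ p0 - 1) * κ' ≤ (2 : ℝ) ^ p0 * (κ / (2 : ℝ) ^ p0) := by
          apply mul_le_mul (by linarith) (min_le_right _ _) hκ'0.le (by positivity)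
      _ = κ := by field_simp
  refine ⟨hA.per, hA.bd, hA.one, fun q hq a ha => ?_⟩
  obtain ⟨w, hw, h4⟩ := hA.sec q hq a ha
  refine ⟨w, hw, h4.trans ?_⟩
  have := mul_le_mul_of_nonneg_right h3 hw
  linarith

end Vale.Agent.P042.WG
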